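import Vale.Agent.P284.H977.CY.L2G
import Vale.Agent.P284.H35.CY.L0

/-! # P284, CY, row L2 (helper977): final form, over 35's extension lemmas. -/

open scoped Manifold ContDiff Topology NNReal ComplexOrder
open Filter Set Metric MeasureTheory

set_option maxSynthPendingDepth 3
set_option linter.unusedVariables false

noncomputable section

namespace Vale.Agent.P284.H977.CY

open Vale.Agent.P272.K Vale.Agent.P272.K.LIN Vale.Agent.P272.K.N Vale.Agent.P284.H248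
  Vale.Agent.P284.H894 Vale.Agent.P284.H730.CY

variable {n : ℕ} {Γ : Type} [Group Γ]

lemma ext_eq (C : Coc n Γ) (a : C.I) {Q : Set (Cm n)} (hQ : Q ⊆ C.V a) {h : Γ → Cm n → ℝ}
    (hh : ∀ γ y, y ∉ Q → h γ y = 0) (p : Pt C) :
    Vale.Agent.P284.H35.CY.Ext C a h p.γ p.a p.z = Ext C a h p := by
  unfold Vale.Agent.P284.H35.CY.Ext Ext
  by_cases h1 : p.z ∈ C.O p.a a
  · by_cases h2 : C.T p.a a p.z ∈ C.V a
    · rw [if_pos h1, if_pos ⟨h1, h2⟩]
    · rw [if_pos h1, if_neg fun h3 => h2 h3.2]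
      exact hh _ _ fun h3 => h2 (hQ h3)
  · rw [if_neg h1, if_neg fun h3 => h1 h3.1]

theorem l0 (C : Coc n Γ) (α : ℝ) (h0 : 0 < α) (h1 : α < 1) : L0 C α where
  c2 := by
    intro a Q hQ hQV β hβ hβ0
    obtain ⟨D, hD, h⟩ := Vale.Agent.P284.H35.CY.I2 h0 h1.le a hQ hQV hβ hβ0
    refine ⟨D, hD, fun v M hM hv hj => ?_⟩
    obtain ⟨u, hu, hn⟩ := h v hv M hM hj
    refine ⟨u, fun p => ?_, hn⟩
    rw [inc_apply, hu p.γ p.a p.z p.mem]
    exact ext_eq C a hQV (fun γ y hy => by rw [hβ0 y hy, zero_mul]) p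
  ha := by
    intro a Q hQ hQV
    obtain ⟨D, hD, h⟩ := Vale.Agent.P284.H35.CY.I3 h0 h1.le a hQ hQV
    refine ⟨D, hD, fun g P S hP hS hg hHB => ?_⟩
    obtain ⟨R, hR, hR0, hR1⟩ := h g P S hP hS hg hHB
    exact ⟨R, fun p => (hR p).trans (ext_eq C a hQV hg p), hR0, hR1⟩

/-- **L2** -/
theorem l2Concl (hS : SStmt) : L2Concl := l2_of (fun n Γ _ C α h0 h1 => l0 C α h0 h1) hS

theorem l2Stmt : L2Stmt := fun hS _ => l2Concl hS

end Vale.Agent.P284.H977.CY
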