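import Vale.Agent.P284.H730.CY.Defs

/-! # P284, CY, rows L0 / L2: extension by zero of `Γ`-families supported in a ball. -/

open scoped Manifold ContDiff Topology NNReal ComplexOrder
open Filter Set Metric MeasureTheory

set_option maxSynthPendingDepth 3
set_option linter.unusedVariables false

noncomputable section

namespace Vale.Agent.P284.H977.CY

open Vale.Agent.P272.K Vale.Agent.P272.K.LIN Vale.Agent.P272.K.N Vale.Agent.P284.H248
  Vale.Agent.P284.H894 Vale.Agent.P284.H730.CY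

variable {n : ℕ} {Γ : Type} [Group Γ]

open Classical in
/-- extension by zero of a family of functions on the ball `V a` -/
def Ext {V : Type} [Zero V] (C : Coc n Γ) (a : C.I) (h : Γ → Cm n → V) (p : Pt C) : V :=
  if p.z ∈ C.O p.a a ∧ C.T p.a a p.z ∈ C.V a then h (p.γ * C.κ p.a a p.z) (C.T p.a a p.z) else 0

/-- what L2 needs from L0 -/
structure L0 (C : Coc n Γ) (α : ℝ) : Prop where
  c2 : ∀ (a : C.I) (Q : Set (Cm n)), IsCompact Q → Q ⊆ C.V a → ∀ β : Cm n → ℝ, ContDiff ℝ ∞ β →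
    (∀ y, y ∉ Q → β y = 0) → ∃ D : ℝ, 0 ≤ D ∧ ∀ (v : Γ → Cm n → ℝ) (M : ℝ), 0 ≤ M →
    (∀ γ, ContDiff ℝ 2 (v γ)) → (∀ γ, HB α (jet (v γ)) M M) →
    ∃ u : C2A C α, (∀ p, (inc C α u : Hol (wt C α) ℝ) p = Ext C a (fun γ y => β y * v γ y) p) ∧
      ‖u‖ ≤ D * M
  ha : ∀ (a : C.I) (Q : Set (Cm n)), IsCompact Q → Q ⊆ C.V a → ∃ D : ℝ, 0 ≤ D ∧
    ∀ (h : Γ → Cm n → ℝ) (P S : ℝ), 0 ≤ P → 0 ≤ S → (∀ γ y, y ∉ Q → h γ y = 0) →
    (∀ γ, HB α (h γ) P S) → ∃ R : HA C α, (∀ p, (R : Hol (wt C α) ℝ) p = Ext C a h p) ∧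
      (R : Hol (wt C α) ℝ).N0 ≤ P ∧ (R : Hol (wt C α) ℝ).N1 ≤ D * (P + S)

section
variable {C : Coc n Γ} {α : ℝ}

lemma V_sub_Ω (C : Coc n Γ) (a : C.I) : C.V a ⊆ C.Ω a :=
  ball_subset_ball (by have := C.r_pos a; linarith)

/-- value of the extension on the ball itself -/
lemma ext_self {V : Type} [Zero V] (a : C.I) (h : Γ → Cm n → V) (γ : Γ) {z : Cm n}
    (hz : z ∈ C.V a) : Ext C a h ⟨γ, a, z, hz⟩ = h γ z := by
  have h1 : z ∈ C.O a a := by rw [C.O_self]; exact V_sub_Ω C a hz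
  have h2 : C.T a a z = z := C.T_self a z h1
  have h3 : C.κ a a z = 1 := C.κ_self a z h1
  unfold Ext
  rw [if_pos ⟨h1, by show C.T a a z ∈ C.V a; rw [h2]; exact hz⟩]
  simp only [h2, h3, mul_one]

lemma ext_zero {V : Type} [Zero V] {a : C.I} {h : Γ → Cm n → V} {Q : Set (Cm n)}
    (hh : ∀ γ y, y ∉ Q → h γ y = 0) {p : Pt C}
    (hp : ¬ (p.z ∈ C.O p.a a ∧ C.T p.a a p.z ∈ Q)) : Ext C a h p = 0 := by
  unfold Ext
  split_ifs with h1
  · exact hh _ _ fun h2 => hp ⟨h1.1, h2⟩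
  · rfl

end

end Vale.Agent.P284.H977.CY
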