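import Vale.Agent.P284.H977.CY.L2a
import Vale.Agent.P284.H119.CY.Res

/-! # P284, CY, row L2 (helper977): the uniform local resolvent (119) -/

open scoped NNReal Topology ContDiff
open Filter Set Metric

noncomputable section

set_option maxSynthPendingDepth 3

namespace Vale.Agent.P284.H977.CY

open Vale.Agent.P272.K.LIN Vale.Agent.P284.H119.CY

theorem ur {E : Type*} [NormedAddCommGroup E] [NormedSpace ℝ E] [FiniteDimensional ℝ E] {α : ℝ}
    (hα : 0 < α) (hα1 : α < 1) : UR E α := by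
  intro lam K ρ hlam hρ
  obtain ⟨r, hr, hr2, C, hC, l₀, hl₀, h⟩ := local_unif (E := E) hα hα1 (lam := lam) (Lam := K)
    (K := max K 0) (ρ := ρ) hlam (le_max_right _ _) hρ
  refine ⟨r, hr, by linarith, C, hC, l₀, hl₀, fun x₀ a b hab l hl f A B hB hf => ?_⟩
  have hx : x₀ ∈ ball x₀ ρ := mem_ball_self hρ
  refine h x₀ a b (fun x hx y hy => (hab.hola x hx y hy).trans ?_)
    (fun x hx y hy => (hab.holb x hx y hy).trans ?_) (hab.pos x₀ hx) (hab.bda x₀ hx)
    (hab.bdb x₀ hx) l hl f A B hB hf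
  all_goals
    exact mul_le_mul_of_nonneg_right (le_max_left _ _) (Real.rpow_nonneg (norm_nonneg _) _)

end Vale.Agent.P284.H977.CY
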