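import Vale.Agent.P284.H977.CY.Ext
import Vale.Agent.P284.H977.CY.L2b

/-! # P284, CY, row L2 (helper977): `l - L` is onto for large `l`, on a Galois covering. -/

open scoped Manifold ContDiff Topology NNReal ComplexOrder
open Filter Set Metric MeasureTheory

set_option maxSynthPendingDepth 3
set_option linter.unusedVariables false

noncomputable section

namespace Vale.Agent.P284.H977.CY

open Vale.Agent.P272.K Vale.Agent.P272.K.LIN Vale.Agent.P272.K.N Vale.Agent.P284.H248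
  Vale.Agent.P284.H894 Vale.Agent.P284.H730.CY

variable {n : ℕ} {Γ : Type} [Group Γ]

section
variable {C : Coc n Γ} {α : ℝ}

/-- a function on `Pt`, cut off in a ball, is Hölder on `ℂⁿ` -/
lemma cut1 {a : C.I} {ψ : Cm n → ℝ} {A B : ℝ} (hA : 0 ≤ A) (hB : 0 ≤ B)
    (hψ : HB α ψ A B) (hψ0 : ∀ y, y ∉ C.V a → ψ y = 0) (g : Hol (wt C α) ℝ) (γ : Γ) :
    HB α (fun y => ψ y * fam (g : Pt C → ℝ) γ a y) ((A + B) * g.N0) ((A + B) * (g.N0 + g.N1)) := by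
  have hn0 := g.N0_nonneg
  have hn1 := g.N1_nonneg
  have hb : ∀ y, ‖fam (g : Pt C → ℝ) γ a y‖ ≤ g.N0 := by
    intro y
    by_cases hy : y ∈ C.V a
    · rw [fam_of_mem _ _ _ hy]; exact g.le_N0 _
    · simp [fam, hy, hn0]
  refine ⟨fun y => ?_, fun y y' => ?_⟩
  · rw [norm_mul]
    calc ‖ψ y‖ * ‖fam (g : Pt C → ℝ) γ a y‖ ≤ A * g.N0 :=
          mul_le_mul (hψ.sup y) (hb y) (norm_nonneg _) hA
      _ ≤ (A + B) * g.N0 := by nlinarith
  · have hr : 0 ≤ ‖y - y'‖ ^ α := Real.rpow_nonneg (norm_nonneg _) _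
    have k1 : ∀ t : ℝ, ‖t‖ ≤ g.N0 → ‖(ψ y - ψ y') * t‖ ≤ B * g.N0 * ‖y - y'‖ ^ α := by
      intro t ht
      rw [norm_mul]
      calc ‖ψ y - ψ y'‖ * ‖t‖ ≤ (B * ‖y - y'‖ ^ α) * g.N0 :=
            mul_le_mul (hψ.hol y y') ht (norm_nonneg _) (by positivity)
        _ = _ := by ring
    have fin1 : B * g.N0 * ‖y - y'‖ ^ α ≤ (A + B) * (g.N0 + g.N1) * ‖y - y'‖ ^ α := by
      refine mul_le_mul_of_nonneg_right ?_ hr
      nlinarith [mul_nonneg hA hn0, mul_nonneg hA hn1, mul_nonneg hB hn1]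
    by_cases hy : y ∈ C.V a
    · by_cases hy' : y' ∈ C.V a
      · have e : ψ y * fam (g : Pt C → ℝ) γ a y - ψ y' * fam (g : Pt C → ℝ) γ a y' =
            ψ y * (fam (g : Pt C → ℝ) γ a y - fam (g : Pt C → ℝ) γ a y') +
              (ψ y - ψ y') * fam (g : Pt C → ℝ) γ a y' := by ring
        rw [e]
        have h1 : ‖fam (g : Pt C → ℝ) γ a y - fam (g : Pt C → ℝ) γ a y'‖ ≤
            g.N1 * ‖y - y'‖ ^ α := by
          rw [fam_of_mem _ _ _ hy, fam_of_mem _ _ _ hy']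
          have h2 := g.le_N1 ⟨γ, a, y, hy⟩ ⟨γ, a, y', hy'⟩
          have h3 : ((wt C α ⟨γ, a, y, hy⟩ ⟨γ, a, y', hy'⟩ : ℝ≥0) : ℝ) = ‖y - y'‖ ^ α := by
            simp [wt]
          rwa [h3] at h2
        refine (norm_add_le _ _).trans ((add_le_add (b := A * g.N1 * ‖y - y'‖ ^ α) ?_
          (k1 _ (hb y'))).trans ?_)
        · rw [norm_mul]
          calc ‖ψ y‖ * ‖fam (g : Pt C → ℝ) γ a y - fam (g : Pt C → ℝ) γ a y'‖
              ≤ A * (g.N1 * ‖y - y'‖ ^ α) := mul_le_mul (hψ.sup y) h1 (norm_nonneg _) hA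
            _ = _ := by ring
        · rw [← add_mul]
          refine mul_le_mul_of_nonneg_right ?_ hr
          nlinarith [mul_nonneg hA hn0, mul_nonneg hA hn1, mul_nonneg hB hn1, mul_nonneg hB hn0]
      · rw [hψ0 y' hy', zero_mul, sub_zero]
        have h1 := k1 _ (hb y)
        rw [hψ0 y' hy', sub_zero] at h1
        exact h1.trans fin1
    · rw [hψ0 y hy, zero_mul, zero_sub, norm_neg]
      have h1 := k1 _ (hb y')
      rw [hψ0 y hy, zero_sub, neg_mul, norm_neg] at h1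
      exact h1.trans fin1

/-- the coefficients of an elliptic operator on a piece -/
lemma cf_of_ell {L : C2A C α →L[ℝ] HA C α} {A : Hol (wt C α) (Bil n →L[ℝ] ℝ)} {c : ℝ}
    (hc : ∀ (p : Pt C) (ξ : Cm n →L[ℝ] ℝ), c * ‖ξ‖ ^ 2 ≤ A p (ξ.smulRight ξ)) (γ : Γ) (b : C.I) :
    Cf α c ‖A‖ (C.V b) (fam (A : Pt C → Bil n →L[ℝ] ℝ) γ b) (fun _ => 0) := by
  refine ⟨fun y hy => ?_, fun y hy => ?_, fun y hy y' hy' => ?_, fun y hy y' hy' => ?_,
    fun y hy ξ => ?_⟩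
  · rw [fam_of_mem _ _ _ hy]; exact A.norm_apply_le _
  · rw [norm_zero]; exact norm_nonneg _
  · rw [fam_of_mem _ _ _ hy, fam_of_mem _ _ _ hy']
    have h2 := A.norm_sub_le' ⟨γ, b, y, hy⟩ ⟨γ, b, y', hy'⟩
    have h3 : ((wt C α ⟨γ, b, y, hy⟩ ⟨γ, b, y', hy'⟩ : ℝ≥0) : ℝ) = ‖y - y'‖ ^ α := by
      simp [wt]
    rwa [h3] at h2
  · rw [sub_self, norm_zero]
    exact mul_nonneg (norm_nonneg _) (Real.rpow_nonneg (norm_nonneg _) _)
  · rw [fam_of_mem _ _ _ hy]; exact hc _ ξ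

lemma Cf.mono {E : Type*} [NormedAddCommGroup E] [NormedSpace ℝ E] {lam K : ℝ} {U U' : Set E}
    {a : E → (E →L[ℝ] E →L[ℝ] ℝ) →L[ℝ] ℝ} {b : E → (E →L[ℝ] ℝ) →L[ℝ] ℝ} (h : Cf α lam K U a b)
    (hU : U' ⊆ U) : Cf α lam K U' a b :=
  ⟨fun y hy => h.bda y (hU hy), fun y hy => h.bdb y (hU hy),
    fun y hy y' hy' => h.hola y (hU hy) y' (hU hy'),
    fun y hy y' hy' => h.holb y (hU hy) y' (hU hy'), fun y hy => h.pos y (hU hy)⟩

set_option maxHeartbeats 2000000 in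
/-- the local approximate solution, for all the pieces `(γ, b)` at the same time -/
theorem local_patch (hα : 0 < α) (hα1 : α < 1) (h0 : L0 C α) {L : C2A C α →L[ℝ] HA C α}
    {A : Hol (wt C α) (Bil n →L[ℝ] ℝ)} (hL : Ell C α L A) {lam r ρ C₀ l₀ : ℝ} (hr : 0 < r)
    (hrρ : r < ρ) (hC₀ : 0 ≤ C₀) (hl₀ : 1 ≤ l₀) {b : C.I} {x : Cm n} (hxV : ball x ρ ⊆ C.V b)
    (hres : ∀ γ : Γ, ∀ l : ℝ, l₀ ≤ l → ∀ (f : Cm n → ℝ) (P S : ℝ), 0 ≤ S → HB α f P S →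
      ∃ v : Cm n → ℝ, ContDiff ℝ 2 v ∧ (∀ y ∈ closedBall x r,
        l * v y - fam (A : Pt C → Bil n →L[ℝ] ℝ) γ b y (fderiv ℝ (fderiv ℝ v) y) = f y) ∧
        ResBd α l C₀ (l ^ (α / 2) * P + S) v)
    (hcf : ∀ γ : Γ, Cf α lam ‖A‖ (C.V b) (fam (A : Pt C → Bil n →L[ℝ] ℝ) γ b) (fun _ => 0))
    {ψ : Cm n → ℝ} (hψ : ContDiff ℝ ∞ ψ) (hψ0 : ∀ y, y ∉ closedBall x (2 * (r / 3)) → ψ y = 0) :
    ∃ C₁ : ℝ, 0 ≤ C₁ ∧ ∀ l : ℝ, l₀ ≤ l → ∀ g : Hol (wt C α) ℝ, g ∈ HA C α →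
      ∃ (u : C2A C α) (R : HA C α),
        (∀ p, (R : Hol (wt C α) ℝ) p = Ext C b (fun _ => ψ) p * g p -
          (l * (inc C α u : Hol (wt C α) ℝ) p - (L u : Hol (wt C α) ℝ) p)) ∧
        ‖u‖ ≤ C₁ * Nl α l g ∧ Nl α l (R : Hol (wt C α) ℝ) ≤ C₁ * l ^ (-(1 / 2) : ℝ) * Nl α l g := by
  set K : Set (Cm n) := closedBall x r with hK_def
  have hK : IsCompact K := isCompact_closedBall _ _
  have hKV : K ⊆ C.V b := (closedBall_subset_ball hrρ).trans hxV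
  have hψK : ∀ y, y ∉ K → ψ y = 0 := fun y hy => hψ0 y fun h => hy
    (closedBall_subset_closedBall (by linarith) h)
  -- the cutoff function
  let β : ContDiffBump x := ⟨2 * (r / 3), r, by positivity, by linarith⟩
  have hβs : ContDiff ℝ ∞ (β : Cm n → ℝ) := β.contDiff
  have hβK : ∀ y, y ∉ K → (β : Cm n → ℝ) y = 0 := fun y hy => by
    apply β.zero_of_le_dist
    simp only [hK_def, mem_closedBall, not_le] at hy
    exact hy.le
  have hβψ : ∀ y, (β : Cm n → ℝ) y * ψ y = ψ y := fun y => by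
    by_cases hy : y ∈ closedBall x (2 * (r / 3))
    · rw [β.one_of_mem_closedBall hy, one_mul]
    · rw [hψ0 y hy, mul_zero]
  obtain ⟨A₁, B₁, hA₁, hB₁, hψHB⟩ := hb_of_K (α := α) hα hα1.le (hψ.of_le one_le_inf) hK hψK
  set C₂ : ℝ := A₁ + B₁ with hC₂
  have hC₂0 : 0 ≤ C₂ := by positivity
  obtain ⟨D₂, hD₂, hT2⟩ := h0.c2 b K hK hKV (β : Cm n → ℝ) hβs hβK
  obtain ⟨D₃, hD₃, hT3⟩ := h0.ha b K hK hKV
  obtain ⟨Aγ, Bγ, hAγ, hBγ, hcm⟩ := hb_cm (α := α) hα hα1.le lam ‖A‖ (norm_nonneg _) hK hKV hβs hβK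
  set D₄ : ℝ := Aγ + D₃ * (Aγ + (Aγ + Bγ)) with hD₄
  have hD₄0 : 0 ≤ D₄ := by positivity
  refine ⟨(D₂ + D₄) * (C₀ * (2 * C₂)), by positivity, fun l hl g hg => ?_⟩
  have hl1 : 1 ≤ l := hl₀.trans hl
  have hl0 : 0 < l := by linarith
  have hg0 := g.N0_nonneg
  have hg1 := g.N1_nonneg
  have hcut := fun γ => cut1 (a := b) hA₁ hB₁ hψHB (fun y hy => hψK y fun h => hy (hKV h)) g γ
  choose v hv heq hbd using fun γ => hres γ l hl _ _ _ (by positivity) (hcut γ)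
  set N : ℝ := l ^ (α / 2) * (C₂ * g.N0) + C₂ * (g.N0 + g.N1) with hN_def
  have hlp : 0 ≤ l ^ (α / 2) := Real.rpow_nonneg hl0.le _
  have hN0 : 0 ≤ N := by positivity
  have hNle : N ≤ 2 * C₂ * Nl α l g := by
    have h1 := norm_le_Nl hα hl1 g
    have h2 : l ^ (α / 2) * g.N0 ≤ Nl α l g := by unfold Nl; linarith
    have h3 : N = C₂ * (l ^ (α / 2) * g.N0) + C₂ * (g.N0 + g.N1) := by rw [hN_def]; ring
    rw [h3]
    nlinarith
  have hNlg : 0 ≤ Nl α l g := Nl_nonneg hl0.le g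
  set M : ℝ := C₀ * N with hM_def
  have hM0 : 0 ≤ M := by positivity
  have hMle : M ≤ C₀ * (2 * C₂) * Nl α l g := by
    rw [hM_def, mul_assoc]; exact mul_le_mul_of_nonneg_left hNle hC₀
  have hj : ∀ γ, HB α (jet (v γ)) M M := fun γ => (hbd γ).jet hα hl1 hM0
  have hj1 : ∀ γ, HB α (fun y => (v γ y, fderiv ℝ (v γ) y)) (M * l ^ (-((1 + α) / 2)))
      (M * l ^ (-(1 / 2) : ℝ)) := fun γ => (hbd γ).jet1 hα hl1 hM0
  obtain ⟨u, hu, hun⟩ := hT2 v M hM0 hv hj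
  set P : ℝ := M * l ^ (-((1 + α) / 2)) with hP
  set S : ℝ := M * l ^ (-(1 / 2) : ℝ) with hS
  have hlp1 : 0 ≤ l ^ (-((1 + α) / 2)) := Real.rpow_nonneg hl0.le _
  have hlp2 : 0 ≤ l ^ (-(1 / 2) : ℝ) := Real.rpow_nonneg hl0.le _
  have hP0 : 0 ≤ P := by positivity
  have hS0 : 0 ≤ S := by positivity
  have hPS : P ≤ S := mul_le_mul_of_nonneg_left
    (Real.rpow_le_rpow_of_exponent_le hl1 (by linarith)) hM0
  have hPS' : l ^ (α / 2) * P = S := by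
    rw [hP, hS, mul_left_comm, ← Real.rpow_add hl0]
    congr 2; ring
  let cmf : Γ → Cm n → (ℝ × (Cm n →L[ℝ] ℝ)) →L[ℝ] ℝ := fun γ =>
    cm (fam (A : Pt C → Bil n →L[ℝ] ℝ) γ b) (fun _ => 0) (β : Cm n → ℝ)
  let hh : Γ → Cm n → ℝ := fun γ y => cmf γ y (v γ y, fderiv ℝ (v γ) y)
  have hhz : ∀ γ y, y ∉ K → hh γ y = 0 := fun γ y hy => by
    show cm _ _ _ y _ = 0
    rw [cm_eq_zero hK.isClosed hβK hy, _root_.zero_apply]
  obtain ⟨R, hR, hR0, hR1⟩ := hT3 hh (Aγ * P) (Aγ * S + Bγ * P) (by positivity) (by positivity) hhz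
    (fun γ => hb_apply hAγ hBγ (hcm _ _ (hcf γ)) (hj1 γ))
  refine ⟨u, R, fun p => ?_, ?_, ?_⟩
  · by_cases hp : p.z ∈ C.O p.a b ∧ C.T p.a b p.z ∈ K
    · -- reduce to the ball `b`
      have hqV : C.T p.a b p.z ∈ C.V b := hKV hp.2
      set y : Cm n := C.T p.a b p.z with hy
      set γ : Γ := p.γ * C.κ p.a b p.z with hγ
      let q : Pt C := ⟨γ, b, y, hqV⟩
      have hpq : Same C p q := ⟨hp.1, rfl, rfl⟩
      have e1 : (R : Hol (wt C α) ℝ) p = (R : Hol (wt C α) ℝ) q := R.2 p q hpq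
      have e2 : g p = g q := hg p q hpq
      have e3 : (inc C α u : Hol (wt C α) ℝ) p = (inc C α u : Hol (wt C α) ℝ) q :=
        (inc C α u).2 p q hpq
      have e4 : (L u : Hol (wt C α) ℝ) p = (L u : Hol (wt C α) ℝ) q := (L u).2 p q hpq
      have e5 : Ext C b (fun _ => ψ) p = ψ y := by
        unfold Ext
        rw [if_pos ⟨hp.1, hqV⟩]
      rw [e1, e2, e3, e4, e5, hR q, hu q, ext_self b _ γ hqV, ext_self b _ γ hqV, hL.eq u q,
        J2_apply]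
      have h1 : fn u q.γ q.a =ᶠ[𝓝 q.z] fun z => (β : Cm n → ℝ) z * v γ z := by
        filter_upwards [(V_open C b).mem_nhds hqV] with z hz
        have h2 := hu ⟨γ, b, z, hz⟩
        rw [inc_apply, ext_self b _ γ hz] at h2
        exact h2
      rw [h1.fderiv.fderiv_eq]
      have h2 := heq γ y hp.2
      rw [fam_of_mem _ _ _ hqV] at h2
      have h3 : fam (g : Pt C → ℝ) γ b y = g q := fam_of_mem _ _ _ hqV
      rw [h3] at h2
      have h4 := cut_eq (a := fam (A : Pt C → Bil n →L[ℝ] ℝ) γ b) (b := fun _ => 0)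
        (β := (β : Cm n → ℝ)) (ψ := ψ) (v := v γ) (y := y) (l := l) (g := g q)
        (hβs.contDiffAt.of_le two_le_inf) (hv γ).contDiffAt (hβψ y) (by
          rw [fam_of_mem _ _ _ hqV]
          simp only [_root_.zero_apply, sub_zero]
          exact h2)
      rw [fam_of_mem _ _ _ hqV] at h4
      simp only [_root_.zero_apply, add_zero] at h4
      show hh γ y = _
      have h5 : hh γ y = cm (fam (A : Pt C → Bil n →L[ℝ] ℝ) γ b) (fun _ => 0) (β : Cm n → ℝ) y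
        (v γ y, fderiv ℝ (v γ) y) := rfl
      rw [h5]
      linarith
    · have e1 : Ext C b hh p = 0 := ext_zero hhz hp
      have e2 : Ext C b (fun _ => ψ) p = 0 := ext_zero (fun _ y hy => hψK y hy) hp
      have e3 : Ext C b (fun γ y => (β : Cm n → ℝ) y * v γ y) p = 0 :=
        ext_zero (fun γ y hy => by rw [hβK y hy, zero_mul]) hp
      have e4 : (L u : Hol (wt C α) ℝ) p = 0 := by
        rw [hL.eq u p, J2_apply]
        have h1 : fn u p.γ p.a =ᶠ[𝓝 p.z] fun _ => 0 := by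
          have h2 := C.closed p.a b K hK (hKV.trans (V_sub_Ω C b)) p.z (V_sub_Ω C p.a p.mem) hp
          filter_upwards [h2, (V_open C p.a).mem_nhds p.mem] with z hz hzV
          have h3 := hu ⟨p.γ, p.a, z, hzV⟩
          rw [inc_apply] at h3
          rw [show fn u p.γ p.a z = _ from h3]
          exact ext_zero (fun γ y hy => by rw [hβK y hy, zero_mul]) hz
        rw [h1.fderiv.fderiv_eq]
        simp
      rw [hR p, hu p, e1, e2, e3, e4]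
      ring
  · calc ‖u‖ ≤ D₂ * M := hun
      _ ≤ D₂ * (C₀ * (2 * C₂) * Nl α l g) := mul_le_mul_of_nonneg_left hMle hD₂
      _ = D₂ * (C₀ * (2 * C₂)) * Nl α l g := by ring
      _ ≤ (D₂ + D₄) * (C₀ * (2 * C₂)) * Nl α l g := by
          gcongr
          linarith
  · calc Nl α l (R : Hol (wt C α) ℝ) = l ^ (α / 2) * (R : Hol (wt C α) ℝ).N0 +
          (R : Hol (wt C α) ℝ).N1 := rfl
      _ ≤ l ^ (α / 2) * (Aγ * P) + D₃ * (Aγ * P + (Aγ * S + Bγ * P)) := by gcongr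
      _ = Aγ * S + D₃ * (Aγ * P + (Aγ * S + Bγ * P)) := by rw [← hPS']; ring
      _ ≤ Aγ * S + D₃ * (Aγ * S + (Aγ * S + Bγ * S)) := by gcongr
      _ = D₄ * S := by rw [hD₄]; ring
      _ = D₄ * l ^ (-(1 / 2) : ℝ) * M := by rw [hS]; ring
      _ ≤ D₄ * l ^ (-(1 / 2) : ℝ) * (C₀ * (2 * C₂) * Nl α l g) := by gcongr
      _ = D₄ * (C₀ * (2 * C₂)) * l ^ (-(1 / 2) : ℝ) * Nl α l g := by ring
      _ ≤ (D₂ + D₄) * (C₀ * (2 * C₂)) * l ^ (-(1 / 2) : ℝ) * Nl α l g := by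
          gcongr
          linarith

end

end Vale.Agent.P284.H977.CY
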