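import Vale.Agent.P284.H977.CY.L2
import Vale.Agent.P284.H730.CY.Spec

/-! # P284, CY, row L2 (helper977): the global half. -/

open scoped Manifold ContDiff Topology NNReal ComplexOrder
open Filter Set Metric MeasureTheory

set_option maxSynthPendingDepth 3
set_option linter.unusedVariables false

noncomputable section

namespace Vale.Agent.P284.H977.CY

open Vale.Agent.P272.K Vale.Agent.P272.K.LIN Vale.Agent.P272.K.N Vale.Agent.P284.H248
  Vale.Agent.P284.H894 Vale.Agent.P284.H730.CY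

variable {n : ℕ} {Γ : Type} [Group Γ]

/-- finitely many centres in the small balls -/
lemma exists_centres (C : Coc n Γ) {s : ℝ} (hs : 0 < s) :
    ∃ t : C.I → Finset (Cm n), (∀ b, ∀ x ∈ t b, x ∈ closedBall (C.c b) (C.r b)) ∧
      ∀ b, ∀ y ∈ ball (C.c b) (C.r b), ∃ x ∈ t b, y ∈ closedBall x s := by
  have h : ∀ b : C.I, ∃ t : Finset (Cm n), (∀ x ∈ t, x ∈ closedBall (C.c b) (C.r b)) ∧
      ∀ y ∈ ball (C.c b) (C.r b), ∃ x ∈ t, y ∈ closedBall x s := by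
    intro b
    obtain ⟨t, ht, htf, hcov⟩ := (isCompact_closedBall (C.c b) (C.r b)).finite_cover_balls hs
    refine ⟨htf.toFinset, fun x hx => ht (htf.mem_toFinset.1 hx), fun y hy => ?_⟩
    have h1 := hcov (ball_subset_closedBall hy)
    simp only [mem_iUnion] at h1
    obtain ⟨x, hx, hxy⟩ := h1
    exact ⟨x, htf.mem_toFinset.2 hx, ball_subset_closedBall hxy⟩
  choose t h1 h2 using h
  exact ⟨t, h1, h2⟩

lemma HA_mul {C : Coc n Γ} {α : ℝ} {f g : Hol (wt C α) ℝ} (hf : f ∈ HA C α) (hg : g ∈ HA C α) :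
    f * g ∈ HA C α := fun p q h => by
  rw [Hol.mul_apply, Hol.mul_apply, hf p q h, hg p q h]

set_option maxHeartbeats 2000000 in
/-- **L2** with the extension lemmas as hypothesis -/
theorem surj_large {C : Coc n Γ} {α : ℝ} (hα : 0 < α) (hα1 : α < 1) (hS : CompleteSpace (C2A C α))
    (h0 : L0 C α) {L : C2A C α →L[ℝ] HA C α} {A : Hol (wt C α) (Bil n →L[ℝ] ℝ)}
    (hL : Ell C α L A) :
    ∃ Λ : ℝ, 1 ≤ Λ ∧ ∀ l : ℝ, Λ ≤ l → Function.Surjective fun v : C2A C α =>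
      l • inc C α v - L v := by
  obtain ⟨c, hc, hell⟩ := hL.pos
  -- the radii
  obtain ⟨ρ, hρ, hρr⟩ : ∃ ρ : ℝ, 0 < ρ ∧ ∀ a, ρ ≤ C.r a := by
    obtain ⟨a₀, -, ha₀⟩ := Finset.exists_min_image (Finset.univ : Finset C.I) C.r
      ⟨C.ne.some, Finset.mem_univ _⟩
    exact ⟨C.r a₀, C.r_pos a₀, fun a => ha₀ a (Finset.mem_univ a)⟩
  obtain ⟨r, hr, hrρ, C₀, hC₀, l₀, hl₀, hres⟩ := ur (E := Cm n) hα hα1 c ‖A‖ ρ hc hρ
  obtain ⟨t, ht1, ht2⟩ := exists_centres C (show 0 < r / 3 by positivity)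
  let J : Type := (b : C.I) × {x // x ∈ t b}
  have hVb : ∀ b, ∀ x ∈ t b, ball x ρ ⊆ C.V b := by
    intro b x hx y hy
    have h1 := ht1 b x hx
    rw [mem_closedBall] at h1
    rw [mem_ball] at hy
    have h2 := hρr b
    have h3 := C.r_pos b
    show y ∈ ball (C.c b) (3 * C.r b)
    rw [mem_ball]
    calc dist y (C.c b) ≤ dist y x + dist x (C.c b) := dist_triangle _ _ _
      _ < 3 * C.r b := by linarith
  have hcf := fun γ b => cf_of_ell (L := L) hell γ b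
  -- the bumps
  let ψ : (j : J) → ContDiffBump (j.2 : Cm n) := fun j =>
    ⟨r / 3, 2 * (r / 3), by positivity, by linarith⟩
  have hψ0 : ∀ (j : J) y, y ∉ closedBall (j.2 : Cm n) (2 * (r / 3)) → (ψ j : Cm n → ℝ) y = 0 := by
    intro j y hy
    apply (ψ j).zero_of_le_dist
    simp only [mem_closedBall, not_le] at hy
    exact hy.le
  have hQV : ∀ j : J, closedBall (j.2 : Cm n) r ⊆ C.V j.1 := fun j =>
    (closedBall_subset_ball hrρ).trans (hVb j.1 j.2 j.2.2)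
  have hψK : ∀ (j : J) y, y ∉ closedBall (j.2 : Cm n) r → (ψ j : Cm n → ℝ) y = 0 :=
    fun j y hy => hψ0 j y fun h => hy (closedBall_subset_closedBall (by linarith) h)
  have hX : ∀ j : J, ∃ R : HA C α, ∀ p, (R : Hol (wt C α) ℝ) p =
      Ext C j.1 (fun _ => (ψ j : Cm n → ℝ)) p := by
    intro j
    obtain ⟨D, hD, h⟩ := h0.ha j.1 (closedBall (j.2 : Cm n) r) (isCompact_closedBall _ _) (hQV j)
    obtain ⟨A₁, B₁, hA₁, hB₁, hHB⟩ := hb_of_K (α := α) hα hα1.le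
      ((ψ j).contDiff.of_le one_le_inf) (isCompact_closedBall (j.2 : Cm n) r) (hψK j)
    obtain ⟨R, hR, -, -⟩ := h (fun _ => (ψ j : Cm n → ℝ)) A₁ B₁ hA₁ hB₁ (fun _ y hy => hψK j y hy)
      (fun _ => hHB)
    exact ⟨R, hR⟩
  choose X hX using hX
  have hXnn : ∀ j p, 0 ≤ (X j : Hol (wt C α) ℝ) p := by
    intro j p
    rw [hX]
    unfold Ext
    split_ifs
    · exact (ψ j).nonneg
    · exact le_rfl
  let S : Hol (wt C α) ℝ := ∑ j, (X j : Hol (wt C α) ℝ)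
  have hSmem : S ∈ HA C α := Submodule.sum_mem _ fun j _ => (X j).2
  have hSx : ∀ p, S p = ∑ j, (X j : Hol (wt C α) ℝ) p := fun p => Hol.sum_apply _ _ _
  have hS1 : ∀ p, 1 ≤ S p := by
    intro p
    obtain ⟨b, hb, hbW⟩ := C.cover p.a p.z (V_sub_Ω C p.a p.mem)
    obtain ⟨x, hx, hxy⟩ := ht2 b _ hbW
    let j : J := ⟨b, x, hx⟩
    have h1 : (X j : Hol (wt C α) ℝ) p = 1 := by
      rw [hX]
      unfold Ext
      have h2 : C.T p.a b p.z ∈ C.V b := by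
        have h3 := C.r_pos b
        exact ball_subset_ball (by linarith) hbW
      rw [if_pos ⟨hb, h2⟩]
      exact (ψ j).one_of_mem_closedBall hxy
    rw [hSx, ← h1]
    exact Finset.single_le_sum (f := fun j => (X j : Hol (wt C α) ℝ) p)
      (fun k _ => hXnn k p) (Finset.mem_univ j)
  let Si : Hol (wt C α) ℝ := Hol.inv S 1 one_pos fun p => by
    rw [Real.norm_eq_abs]; exact (hS1 p).trans (le_abs_self _)
  have hSi : Si ∈ HA C α := fun p q h => by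
    show (Hol.inv S 1 one_pos _) p = (Hol.inv S 1 one_pos _) q
    rw [Hol.inv_apply, Hol.inv_apply, hSmem p q h]
  have hSiS : ∀ p, S p * Si p = 1 := fun p => by
    show S p * (Hol.inv S 1 one_pos _) p = 1
    rw [Hol.inv_apply]
    have := hS1 p
    field_simp
  -- local solvers
  have hsol : ∀ j : J, ∃ C₁ : ℝ, 0 ≤ C₁ ∧ ∀ l : ℝ, l₀ ≤ l → ∀ g : Hol (wt C α) ℝ, g ∈ HA C α →
      ∃ (u : C2A C α) (R : HA C α),
        (∀ p, (R : Hol (wt C α) ℝ) p = Ext C j.1 (fun _ => (ψ j : Cm n → ℝ)) p * g p -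
          (l * (inc C α u : Hol (wt C α) ℝ) p - (L u : Hol (wt C α) ℝ) p)) ∧
        ‖u‖ ≤ C₁ * Nl α l g ∧
        Nl α l (R : Hol (wt C α) ℝ) ≤ C₁ * l ^ (-(1 / 2) : ℝ) * Nl α l g := by
    intro j
    refine local_patch hα hα1 h0 hL (lam := c) hr hrρ hC₀ hl₀ (hVb j.1 j.2 j.2.2) ?_
      (fun γ => hcf γ j.1) (ψ j).contDiff (hψ0 j)
    intro γ l hl f P S' hS' hf
    obtain ⟨v, hv, heq, hbd⟩ := hres (j.2 : Cm n) _ _
      ((hcf γ j.1).mono (hVb j.1 j.2 j.2.2)) l hl f P S' hS' hf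
    refine ⟨v, hv, fun y hy => ?_, hbd⟩
    have h1 := heq y hy
    simpa using h1
  choose C₁ hC₁ hsol using hsol
  set CC : ℝ := ∑ j, C₁ j with hCC
  have hCC0 : 0 ≤ CC := Finset.sum_nonneg fun j _ => hC₁ j
  set B : ℝ := Si.N0 + Si.N1 with hB_def
  have hB0 : 0 ≤ B := add_nonneg Si.N0_nonneg Si.N1_nonneg
  have hsq := sq_nonneg (2 * CC * B)
  refine ⟨l₀ + (2 * CC * B) ^ 2, by linarith, fun l hl => ?_⟩
  have hl₀l : l₀ ≤ l := by linarith
  have hl1 : 1 ≤ l := by linarith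
  have hlpos : 0 < l := by linarith
  have hlh : CC * l ^ (-(1 / 2) : ℝ) * B ≤ 1 / 2 := by
    have h1 : 2 * CC * B ≤ l ^ (1 / 2 : ℝ) := by
      have h2 : 2 * CC * B ≤ Real.sqrt l := Real.le_sqrt_of_sq_le (by linarith)
      rwa [Real.sqrt_eq_rpow] at h2
    have h3 : l ^ (-(1 / 2) : ℝ) * l ^ (1 / 2 : ℝ) = 1 := by
      rw [← Real.rpow_add hlpos]; simp
    have h4 : 0 ≤ l ^ (-(1 / 2) : ℝ) := Real.rpow_nonneg hlpos.le _
    have h5 := mul_le_mul_of_nonneg_left h1 h4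
    nlinarith
  refine surjective_of_approx (l • inc C α - L) (fun y : HA C α => Nl α l (y : Hol (wt C α) ℝ))
    (CC * B) 1 (fun y => Nl_nonneg hlpos.le _)
    (fun y => by rw [one_mul]; exact norm_le_Nl hα hl1 (y : Hol (wt C α) ℝ)) fun f => ?_
  have hg := Nl_mul_le hα hl1 Si (f : Hol (wt C α) ℝ)
  choose u R hR hu hRN using fun j => hsol j l hl₀l (Si * (f : Hol (wt C α) ℝ)) (HA_mul hSi f.2)
  refine ⟨∑ j, u j, ?_, ?_⟩
  · calc ‖∑ j, u j‖ ≤ ∑ j, ‖u j‖ := norm_sum_le _ _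
      _ ≤ ∑ j, C₁ j * Nl α l (Si * (f : Hol (wt C α) ℝ)) := Finset.sum_le_sum fun j _ => hu j
      _ = CC * Nl α l (Si * (f : Hol (wt C α) ℝ)) := by rw [← Finset.sum_mul]
      _ ≤ CC * (B * Nl α l (f : Hol (wt C α) ℝ)) := mul_le_mul_of_nonneg_left hg hCC0
      _ = CC * B * Nl α l (f : Hol (wt C α) ℝ) := by ring
  · have hsum : ((f - (l • inc C α - L) (∑ j, u j) : HA C α) : Hol (wt C α) ℝ) =
        ∑ j, (R j : Hol (wt C α) ℝ) := by
      refine Hol.ext fun x => ?_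
      rw [Hol.sum_apply]
      have h1 : (((l • inc C α - L) (∑ j, u j) : HA C α) : Hol (wt C α) ℝ) x =
          ∑ j, (l * (inc C α (u j) : Hol (wt C α) ℝ) x - (L (u j) : Hol (wt C α) ℝ) x) := by
        rw [map_sum, Submodule.coe_sum, Hol.sum_apply]
        rfl
      have h2 : ∀ j, (R j : Hol (wt C α) ℝ) x =
          (X j : Hol (wt C α) ℝ) x * (Si * (f : Hol (wt C α) ℝ)) x -
          (l * (inc C α (u j) : Hol (wt C α) ℝ) x - (L (u j) : Hol (wt C α) ℝ) x) := fun j => by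
        rw [hR j x, hX j x]
      show (f : Hol (wt C α) ℝ) x - (((l • inc C α - L) (∑ j, u j) : HA C α) : Hol (wt C α) ℝ) x = _
      have h3 : ∑ j, (R j : Hol (wt C α) ℝ) x =
          (∑ j, (X j : Hol (wt C α) ℝ) x) * (Si * (f : Hol (wt C α) ℝ)) x -
          ∑ j, (l * (inc C α (u j) : Hol (wt C α) ℝ) x - (L (u j) : Hol (wt C α) ℝ) x) := by
        rw [Finset.sum_mul, ← Finset.sum_sub_distrib]
        exact Finset.sum_congr rfl fun j _ => h2 j
      rw [h1, h3, ← hSx]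
      congr 1
      rw [Hol.mul_apply, ← mul_assoc, hSiS, one_mul]
    show Nl α l ((f - (l • inc C α - L) (∑ j, u j) : HA C α) : Hol (wt C α) ℝ) ≤ _
    rw [hsum]
    calc Nl α l (∑ j, (R j : Hol (wt C α) ℝ)) ≤ ∑ j, Nl α l (R j : Hol (wt C α) ℝ) :=
          Nl_sum_le hlpos.le _ _
      _ ≤ ∑ j, C₁ j * l ^ (-(1 / 2) : ℝ) * Nl α l (Si * (f : Hol (wt C α) ℝ)) :=
          Finset.sum_le_sum fun j _ => hRN j
      _ = CC * l ^ (-(1 / 2) : ℝ) * Nl α l (Si * (f : Hol (wt C α) ℝ)) := by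
          rw [← Finset.sum_mul, ← Finset.sum_mul]
      _ ≤ CC * l ^ (-(1 / 2) : ℝ) * (B * Nl α l (f : Hol (wt C α) ℝ)) := by
          have : 0 ≤ l ^ (-(1 / 2) : ℝ) := Real.rpow_nonneg hlpos.le _
          gcongr
      _ = (CC * l ^ (-(1 / 2) : ℝ) * B) * Nl α l (f : Hol (wt C α) ℝ) := by ring
      _ ≤ (1 / 2) * Nl α l (f : Hol (wt C α) ℝ) :=
          mul_le_mul_of_nonneg_right hlh (Nl_nonneg hlpos.le _)
      _ = Nl α l (f : Hol (wt C α) ℝ) / 2 := by ring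

/-- **L2** from the extension lemmas -/
theorem l2_of (hL0 : ∀ (n : ℕ) (Γ : Type) [Group Γ] (C : Coc n Γ) (α : ℝ), 0 < α → α < 1 →
    L0 C α) (hS : SStmt) : L2Concl := by
  intro n Γ _ C α hα hα1 L a hL
  have := (hS n Γ C α hα).2
  obtain ⟨Λ, hΛ, h⟩ := surj_large hα hα1 this (hL0 n Γ C α hα hα1) hL
  exact ⟨Λ, by linarith, fun f => h Λ le_rfl f⟩

end Vale.Agent.P284.H977.CY
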