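import Vale.Agent.P272.K.LIN.Patch

/-! # P284, CY, row L2 (helper977), local half: cut off solutions and their remainders, with uniform
constants. -/

open scoped NNReal Topology ContDiff
open Filter Set Metric

noncomputable section

set_option linter.unusedVariables false
set_option linter.unusedSectionVars false
set_option maxSynthPendingDepth 3

namespace Vale.Agent.P284.H977.CY

open Vale.Agent.P272.K.LIN

variable {E : Type*} [NormedAddCommGroup E] [NormedSpace ℝ E]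

/-- a class of elliptic coefficients with uniform bounds -/
structure Cf (α lam K : ℝ) (U : Set E) (a : E → (E →L[ℝ] E →L[ℝ] ℝ) →L[ℝ] ℝ)
    (b : E → (E →L[ℝ] ℝ) →L[ℝ] ℝ) : Prop where
  bda : ∀ y ∈ U, ‖a y‖ ≤ K
  bdb : ∀ y ∈ U, ‖b y‖ ≤ K
  hola : ∀ y ∈ U, ∀ y' ∈ U, ‖a y - a y'‖ ≤ K * ‖y - y'‖ ^ α
  holb : ∀ y ∈ U, ∀ y' ∈ U, ‖b y - b y'‖ ≤ K * ‖y - y'‖ ^ α
  pos : ∀ y ∈ U, ∀ ξ : E →L[ℝ] ℝ, lam * ‖ξ‖ ^ 2 ≤ a y (ξ.smulRight ξ)

/-- the uniform local resolvent -/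
def UR (E : Type*) [NormedAddCommGroup E] [NormedSpace ℝ E] (α : ℝ) : Prop :=
  ∀ lam K ρ : ℝ, 0 < lam → 0 < ρ → ∃ r : ℝ, 0 < r ∧ r < ρ ∧ ∃ C : ℝ, 0 ≤ C ∧ ∃ l₀ : ℝ, 1 ≤ l₀ ∧
    ∀ (x₀ : E) (a : E → (E →L[ℝ] E →L[ℝ] ℝ) →L[ℝ] ℝ) (b : E → (E →L[ℝ] ℝ) →L[ℝ] ℝ),
    Cf α lam K (ball x₀ ρ) a b → ∀ l : ℝ, l₀ ≤ l → ∀ (f : E → ℝ) (A B : ℝ), 0 ≤ B → HB α f A B →
    ∃ v : E → ℝ, ContDiff ℝ 2 v ∧ (∀ x ∈ closedBall x₀ r,
      l * v x - a x (fderiv ℝ (fderiv ℝ v) x) - b x (fderiv ℝ v x) = f x) ∧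
      ResBd α l C (l ^ (α / 2) * A + B) v

section
variable {V W V' : Type*} [NormedAddCommGroup V] [NormedSpace ℝ V]
  [NormedAddCommGroup W] [NormedSpace ℝ W] [NormedAddCommGroup V'] [NormedSpace ℝ V']

/-- A coefficient which is Hölder only on `K` times a Hölder function supported in `K`, explicit
constants. -/
lemma hb_cut' {α : ℝ} (B : V' →L[ℝ] V →L[ℝ] W) {a : E → V'} {c : E → V} {K : Set E} {M N A D : ℝ}
    (hM : 0 ≤ M) (hN : 0 ≤ N) (hA : 0 ≤ A) (hD : 0 ≤ D)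
    (hc : HB α c M N) (hc0 : ∀ y, y ∉ K → c y = 0) (ha : ∀ y ∈ K, ‖a y‖ ≤ A)
    (hah : ∀ y ∈ K, ∀ y' ∈ K, ‖a y - a y'‖ ≤ D * ‖y - y'‖ ^ α) :
    HB α (fun y => B (a y) (c y)) (‖B‖ * A * M) (‖B‖ * A * N + ‖B‖ * D * M) := by
  refine ⟨fun y => ?_, fun y y' => ?_⟩
  · by_cases hy : y ∈ K
    · refine (B.le_opNorm₂ _ _).trans ?_
      have h1 := ha y hy
      have h2 := hc.sup y
      gcongr
    · simp only [hc0 y hy, map_zero, norm_zero]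
      positivity
  · have hr : 0 ≤ ‖y - y'‖ ^ α := Real.rpow_nonneg (norm_nonneg _) _
    have hN' : ‖c y - c y'‖ ≤ N * ‖y - y'‖ ^ α := hc.hol y y'
    have key : ∀ z ∈ K, ‖B (a z) (c y - c y')‖ ≤ ‖B‖ * A * N * ‖y - y'‖ ^ α := by
      intro z hz
      refine (B.le_opNorm₂ _ _).trans ?_
      have h1 := ha z hz
      calc ‖B‖ * ‖a z‖ * ‖c y - c y'‖ ≤ ‖B‖ * A * (N * ‖y - y'‖ ^ α) := by gcongr
        _ = _ := by ring
    have hrest : 0 ≤ ‖B‖ * D * M * ‖y - y'‖ ^ α := by positivity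
    by_cases hy : y ∈ K
    · by_cases hy' : y' ∈ K
      · have h1 : B (a y) (c y) - B (a y') (c y') = B (a y) (c y - c y') +
            B (a y - a y') (c y') := by
          simp only [map_sub, _root_.sub_apply]; abel
        rw [h1]
        refine (norm_add_le _ _).trans ?_
        have h2 : ‖B (a y - a y') (c y')‖ ≤ ‖B‖ * D * M * ‖y - y'‖ ^ α := by
          refine (B.le_opNorm₂ _ _).trans ?_
          have h3 : ‖a y - a y'‖ ≤ D * ‖y - y'‖ ^ α := hah y hy y' hy'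
          have h4 := hc.sup y'
          calc ‖B‖ * ‖a y - a y'‖ * ‖c y'‖ ≤ ‖B‖ * (D * ‖y - y'‖ ^ α) * M := by gcongr
            _ = _ := by ring
        have := key y hy
        nlinarith
      · have h1 : B (a y') (c y') = 0 := by rw [hc0 y' hy', map_zero]
        have h2 : B (a y) (c y) = B (a y) (c y - c y') := by rw [hc0 y' hy', sub_zero]
        show ‖B (a y) (c y) - B (a y') (c y')‖ ≤ _
        rw [h1, sub_zero, h2]
        have := key y hy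
        nlinarith
    · have h1 : B (a y) (c y) = 0 := by rw [hc0 y hy, map_zero]
      show ‖B (a y) (c y) - B (a y') (c y')‖ ≤ _
      rw [h1, zero_sub, norm_neg]
      by_cases hy' : y' ∈ K
      · have h2 : ‖B (a y') (c y')‖ = ‖B (a y') (c y - c y')‖ := by
          rw [hc0 y hy, zero_sub, map_neg, norm_neg]
        rw [h2]
        have := key y' hy'
        nlinarith
      · rw [hc0 y' hy', map_zero, norm_zero]
        positivity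

end

/-- the commutator coefficient -/
def cm (a : E → (E →L[ℝ] E →L[ℝ] ℝ) →L[ℝ] ℝ) (b : E → (E →L[ℝ] ℝ) →L[ℝ] ℝ) (β : E → ℝ) (y : E) :
    (ℝ × (E →L[ℝ] ℝ)) →L[ℝ] ℝ :=
  (a y).comp (com1 β y) + (b y).comp (com2 β y)

section
variable [FiniteDimensional ℝ E]

lemma jet_zero_off {β : E → ℝ} {K : Set E} (hK : IsClosed K) (h : ∀ y, y ∉ K → β y = 0) {y : E}
    (hy : y ∉ K) : jet β y = 0 := by
  have h1 : β =ᶠ[𝓝 y] fun _ => 0 := by
    filter_upwards [hK.isOpen_compl.mem_nhds hy] with z hz using h z hz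
  rw [jet_congr h1]
  unfold jet
  simp

lemma cm_eq_zero {a : E → (E →L[ℝ] E →L[ℝ] ℝ) →L[ℝ] ℝ} {b : E → (E →L[ℝ] ℝ) →L[ℝ] ℝ} {β : E → ℝ}
    {K : Set E} (hK : IsClosed K) (h : ∀ y, y ∉ K → β y = 0) {y : E} (hy : y ∉ K) :
    cm a b β y = 0 := by
  have h0 := jet_zero_off hK h hy
  unfold cm
  rw [com1_eq_zero h0, com2_eq_zero h0, ContinuousLinearMap.comp_zero,
    ContinuousLinearMap.comp_zero, add_zero]

/-- uniform Hölder bounds of the commutator coefficient -/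
lemma hb_cm {α : ℝ} (h0 : 0 < α) (h1 : α ≤ 1) (lam K : ℝ) (hK0 : 0 ≤ K) {U Q : Set E}
    (hQ : IsCompact Q) (hQU : Q ⊆ U) {β : E → ℝ} (hβ : ContDiff ℝ ∞ β)
    (hβ0 : ∀ y, y ∉ Q → β y = 0) :
    ∃ A B : ℝ, 0 ≤ A ∧ 0 ≤ B ∧ ∀ a b, Cf α lam K U a b → HB α (cm a b β) A B := by
  have hj : ∀ y, y ∉ Q → jet β y = 0 := fun y hy => jet_zero_off hQ.isClosed hβ0 hy
  obtain ⟨A₄, B₄, hA₄, hB₄, hγ1⟩ := hb_of_K (α := α) h0 h1 (com1_contDiff hβ) hQ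
    (fun y hy => com1_eq_zero (hj y hy))
  obtain ⟨A₅, B₅, hA₅, hB₅, hγ2⟩ := hb_of_K (α := α) h0 h1 (com2_contDiff hβ) hQ
    (fun y hy => com2_eq_zero (hj y hy))
  set c1 := ContinuousLinearMap.compL ℝ (ℝ × (E →L[ℝ] ℝ)) (E →L[ℝ] E →L[ℝ] ℝ) ℝ
  set c2 := ContinuousLinearMap.compL ℝ (ℝ × (E →L[ℝ] ℝ)) (E →L[ℝ] ℝ) ℝ
  refine ⟨‖c1‖ * K * A₄ + ‖c2‖ * K * A₅,
    (‖c1‖ * K * B₄ + ‖c1‖ * K * A₄) + (‖c2‖ * K * B₅ + ‖c2‖ * K * A₅), by positivity,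
    by positivity, fun a b hab => ?_⟩
  have g1 := hb_cut' c1 (a := a) hA₄ hB₄ hK0 hK0 hγ1 (fun y hy => com1_eq_zero (hj y hy))
    (fun y hy => hab.bda y (hQU hy)) (fun y hy y' hy' => hab.hola y (hQU hy) y' (hQU hy'))
  have g2 := hb_cut' c2 (a := b) hA₅ hB₅ hK0 hK0 hγ2 (fun y hy => com2_eq_zero (hj y hy))
    (fun y hy => hab.bdb y (hQU hy)) (fun y hy y' hy' => hab.holb y (hQU hy) y' (hQU hy'))
  refine ⟨fun y => (norm_add_le _ _).trans (add_le_add (g1.sup y) (g2.sup y)), fun y y' => ?_⟩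
  have h2 : cm a b β y - cm a b β y' = (c1 (a y) (com1 β y) - c1 (a y') (com1 β y')) +
      (c2 (b y) (com2 β y) - c2 (b y') (com2 β y')) := add_sub_add_comm _ _ _ _
  rw [h2, add_mul]
  exact (norm_add_le _ _).trans (add_le_add (g1.hol y y') (g2.hol y y'))

end

/-- the equation of the cut off solution -/
lemma cut_eq {a : E → (E →L[ℝ] E →L[ℝ] ℝ) →L[ℝ] ℝ} {b : E → (E →L[ℝ] ℝ) →L[ℝ] ℝ} {β ψ v : E → ℝ}
    {y : E} {l g : ℝ} (hβ : ContDiffAt ℝ 2 β y) (hv : ContDiffAt ℝ 2 v y)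
    (hβψ : β y * ψ y = ψ y)
    (heq : l * v y - a y (fderiv ℝ (fderiv ℝ v) y) - b y (fderiv ℝ v y) = ψ y * g) :
    l * (β y * v y) - (a y (fderiv ℝ (fderiv ℝ fun z => β z * v z) y) +
      b y (fderiv ℝ (fun z => β z * v z) y)) = ψ y * g - cm a b β y (v y, fderiv ℝ v y) := by
  rw [op_mul (a y) (b y) hβ hv]
  have h4 : cm a b β y (v y, fderiv ℝ v y) = a y (com1 β y (v y, fderiv ℝ v y)) +
      b y (com2 β y (v y, fderiv ℝ v y)) := rfl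
  rw [h4]
  have h5 : a y (fderiv ℝ (fderiv ℝ v) y) + b y (fderiv ℝ v y) = l * v y - ψ y * g := by linarith
  rw [h5]
  linear_combination g * hβψ

end Vale.Agent.P284.H977.CY
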